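import Vale.Agent.Lib.P318.helper51.Defs

namespace Vale.Agent.Lib.P318

open Finset

variable {n : ℕ}

theorem IsNegTypeSemimetric.symm {d : Fin n → Fin n → ℝ} (h : IsNegTypeSemimetric d)
    (i j : Fin n) : d i j = d j i := by
  obtain ⟨⟨x, hx⟩, -⟩ := h
  rw [hx i j, hx j i, norm_sub_rev]

theorem IsNegTypeSemimetric.self {d : Fin n → Fin n → ℝ} (h : IsNegTypeSemimetric d)
    (i : Fin n) : d i i = 0 := by
  obtain ⟨⟨x, hx⟩, -⟩ := h
  rw [hx i i, sub_self, norm_zero]
  norm_num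

theorem IsNegTypeSemimetric.nonneg {d : Fin n → Fin n → ℝ} (h : IsNegTypeSemimetric d)
    (i j : Fin n) : 0 ≤ d i j := by
  obtain ⟨⟨x, hx⟩, -⟩ := h
  rw [hx i j]
  positivity

theorem IsNegTypeSemimetric.const_mul {d : Fin n → Fin n → ℝ} (h : IsNegTypeSemimetric d)
    {t : ℝ} (ht : 0 ≤ t) : IsNegTypeSemimetric (fun i j => t * d i j) := by
  obtain ⟨⟨x, hx⟩, htri⟩ := h
  refine ⟨⟨fun i => Real.sqrt t • x i, fun i j => ?_⟩, fun i j k => ?_⟩
  · show t * d i j = ‖Real.sqrt t • x i - Real.sqrt t • x j‖ ^ 2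
    rw [← smul_sub, norm_smul, mul_pow, Real.norm_eq_abs, sq_abs, Real.sq_sqrt ht, hx i j]
  · show t * d i k ≤ t * d i j + t * d j k
    have h1 := mul_le_mul_of_nonneg_left (htri i j k) ht
    linarith

theorem sparsestCut_le_cutRatio (c : Fin n → Fin n → ℝ) (S : Finset (Fin n))
    (hS : S.Nonempty) (hS' : S ≠ univ) : sparsestCut c ≤ cutRatio c S := by
  apply csInf_le
  · apply Set.Finite.bddBelow
    apply Set.Finite.subset (Set.finite_range (fun S : Finset (Fin n) => cutRatio c S))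
    rintro v ⟨S, -, -, rfl⟩
    exact ⟨S, rfl⟩
  · exact ⟨S, hS, hS', rfl⟩

theorem le_sparsestCut (c : Fin n → Fin n → ℝ) (hn : 2 ≤ n) (a : ℝ)
    (h : ∀ S : Finset (Fin n), S.Nonempty → S ≠ univ → a ≤ cutRatio c S) :
    a ≤ sparsestCut c := by
  have i0 : Fin n := ⟨0, by omega⟩
  have hne : ({i0} : Finset (Fin n)) ≠ univ := by
    intro h1
    have h2 := congrArg Finset.card h1
    rw [Finset.card_singleton, Finset.card_univ, Fintype.card_fin] at h2
    omega
  apply le_csInf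
  · exact ⟨cutRatio c {i0}, {i0}, singleton_nonempty _, hne, rfl⟩
  · rintro v ⟨S, hS, hS', rfl⟩
    exact h S hS hS'

theorem pairSum_nonneg (f : Fin n → Fin n → ℝ) (hf : ∀ i j, 0 ≤ f i j) : 0 ≤ pairSum f := by
  unfold pairSum
  apply Finset.sum_nonneg
  intro i _
  apply Finset.sum_nonneg
  intro j _
  split_ifs
  · exact hf i j
  · exact le_rfl

theorem glValue_le (c : Fin n → Fin n → ℝ) (hc : IsCap c) (d : Fin n → Fin n → ℝ)
    (hd : IsNegTypeSemimetric d) (h1 : pairSum d = 1) :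
    glValue c ≤ pairSum (fun i j => c i j * d i j) := by
  apply csInf_le
  · refine ⟨0, ?_⟩
    rintro v ⟨d, hd, -, rfl⟩
    exact pairSum_nonneg _ (fun i j => mul_nonneg (hc.2.1 i j) (hd.nonneg i j))
  · exact ⟨d, hd, h1, rfl⟩

theorem le_glValue (c : Fin n → Fin n → ℝ) (a : ℝ)
    (hne : ∃ d : Fin n → Fin n → ℝ, IsNegTypeSemimetric d ∧ pairSum d = 1)
    (h : ∀ d : Fin n → Fin n → ℝ, IsNegTypeSemimetric d → pairSum d = 1 →
      a ≤ pairSum (fun i j => c i j * d i j)) : a ≤ glValue c := by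
  apply le_csInf
  · obtain ⟨d, hd, h1⟩ := hne
    exact ⟨_, d, hd, h1, rfl⟩
  · rintro v ⟨d, hd, h1, rfl⟩
    exact h d hd h1

theorem two_mul_pairSum (f : Fin n → Fin n → ℝ) (hs : ∀ i j, f i j = f j i)
    (h0 : ∀ i, f i i = 0) : 2 * pairSum f = ∑ i, ∑ j, f i j := by
  unfold pairSum
  have h1 : ∑ i, ∑ j, (if i < j then f i j else 0) = ∑ i, ∑ j, (if j < i then f i j else 0) := by
    rw [Finset.sum_comm]
    apply Finset.sum_congr rfl
    intro i _
    apply Finset.sum_congr rfl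
    intro j _
    rw [hs j i]
  have h2 : ∑ i, ∑ j, (if i < j then f i j else 0) + ∑ i, ∑ j, (if j < i then f i j else 0)
      = ∑ i, ∑ j, f i j := by
    rw [← Finset.sum_add_distrib]
    apply Finset.sum_congr rfl
    intro i _
    rw [← Finset.sum_add_distrib]
    apply Finset.sum_congr rfl
    intro j _
    rcases lt_trichotomy i j with h | h | h
    · simp [h, h.not_gt]
    · subst h
      simp [h0]
    · simp [h, h.not_gt]
  linarith

theorem pairSum_const_mul (t : ℝ) (f : Fin n → Fin n → ℝ) :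
    pairSum (fun i j => t * f i j) = t * pairSum f := by
  unfold pairSum
  rw [Finset.mul_sum]
  apply Finset.sum_congr rfl
  intro i _
  rw [Finset.mul_sum]
  apply Finset.sum_congr rfl
  intro j _
  split_ifs <;> simp

theorem sum_cut_split (S : Finset (Fin n)) (g : Fin n → Fin n → ℝ) :
    ∑ i, ∑ j, (if (i ∈ S ↔ j ∈ S) then 0 else g i j) =
      ∑ i ∈ S, ∑ j ∈ Sᶜ, g i j + ∑ i ∈ Sᶜ, ∑ j ∈ S, g i j := by
  rw [← Finset.sum_add_sum_compl S (fun i => ∑ j, (if (i ∈ S ↔ j ∈ S) then 0 else g i j))]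
  congr 1
  · apply Finset.sum_congr rfl
    intro i hi
    rw [← Finset.sum_add_sum_compl S (fun j => (if (i ∈ S ↔ j ∈ S) then 0 else g i j))]
    have h1 : ∑ j ∈ S, (if (i ∈ S ↔ j ∈ S) then 0 else g i j) = 0 := by
      apply Finset.sum_eq_zero
      intro j hj
      simp [hi, hj]
    have h2 : ∑ j ∈ Sᶜ, (if (i ∈ S ↔ j ∈ S) then 0 else g i j) = ∑ j ∈ Sᶜ, g i j := by
      apply Finset.sum_congr rfl
      intro j hj
      have hj' : j ∉ S := Finset.mem_compl.mp hj
      simp [hi, hj']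
    rw [h1, h2, zero_add]
  · apply Finset.sum_congr rfl
    intro i hi
    have hi' : i ∉ S := Finset.mem_compl.mp hi
    rw [← Finset.sum_add_sum_compl S (fun j => (if (i ∈ S ↔ j ∈ S) then 0 else g i j))]
    have h1 : ∑ j ∈ S, (if (i ∈ S ↔ j ∈ S) then 0 else g i j) = ∑ j ∈ S, g i j := by
      apply Finset.sum_congr rfl
      intro j hj
      simp [hi', hj]
    have h2 : ∑ j ∈ Sᶜ, (if (i ∈ S ↔ j ∈ S) then 0 else g i j) = 0 := by
      apply Finset.sum_eq_zero
      intro j hj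
      have hj' : j ∉ S := Finset.mem_compl.mp hj
      simp [hi', hj']
    rw [h1, h2, add_zero]

theorem pairSum_cut (S : Finset (Fin n)) (g : Fin n → Fin n → ℝ) (hs : ∀ i j, g i j = g j i) :
    pairSum (fun i j => if (i ∈ S ↔ j ∈ S) then 0 else g i j) = ∑ i ∈ S, ∑ j ∈ Sᶜ, g i j := by
  have h := two_mul_pairSum (fun i j => if (i ∈ S ↔ j ∈ S) then 0 else g i j)
    (fun i j => by
      by_cases hi : i ∈ S <;> by_cases hj : j ∈ S <;> simp [hi, hj, hs i j])
    (fun i => by simp)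
  rw [sum_cut_split] at h
  have h3 : ∑ i ∈ Sᶜ, ∑ j ∈ S, g i j = ∑ i ∈ S, ∑ j ∈ Sᶜ, g i j := by
    rw [Finset.sum_comm]
    apply Finset.sum_congr rfl
    intro i _
    apply Finset.sum_congr rfl
    intro j _
    exact hs j i
  linarith

theorem isNegType_cut (S : Finset (Fin n)) (i0 : Fin n) :
    IsNegTypeSemimetric (fun i j : Fin n => if (i ∈ S ↔ j ∈ S) then (0 : ℝ) else 1) := by
  refine ⟨⟨fun i => if i ∈ S then EuclideanSpace.single i0 (1 : ℝ) else 0, fun i j => ?_⟩,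
    fun i j k => ?_⟩
  · by_cases hi : i ∈ S <;> by_cases hj : j ∈ S <;> simp [hi, hj]
  · by_cases hi : i ∈ S <;> by_cases hj : j ∈ S <;> by_cases hk : k ∈ S <;> simp [hi, hj, hk]

theorem card_compl_cast (S : Finset (Fin n)) : (Sᶜ.card : ℝ) = (n : ℝ) - S.card := by
  have h : S.card ≤ n := by simpa using Finset.card_le_univ S
  rw [Finset.card_compl, Fintype.card_fin, Nat.cast_sub h]

theorem cut_size_pos (S : Finset (Fin n)) (hS : S.Nonempty) (hS' : S ≠ univ) :
    0 < (S.card : ℝ) * ((n : ℝ) - S.card) := by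
  have h1 : 0 < S.card := Finset.card_pos.mpr hS
  have h2 : S.card < n := by
    have h3 := Finset.card_lt_card (Finset.ssubset_univ_iff.mpr hS')
    simpa using h3
  have h1' : (0 : ℝ) < S.card := by exact_mod_cast h1
  have h2' : (S.card : ℝ) < n := by exact_mod_cast h2
  exact mul_pos h1' (by linarith)

/-- The normalized cut semimetric of `S` is feasible and its objective is the cut ratio. -/
theorem exists_cut_feasible (c : Fin n → Fin n → ℝ) (hc : IsCap c) (S : Finset (Fin n))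
    (hS : S.Nonempty) (hS' : S ≠ univ) :
    ∃ d : Fin n → Fin n → ℝ, IsNegTypeSemimetric d ∧ pairSum d = 1 ∧
      pairSum (fun i j => c i j * d i j) = cutRatio c S := by
  have hK := cut_size_pos S hS hS'
  obtain ⟨i0, -⟩ := hS
  refine ⟨fun i j => (1 / ((S.card : ℝ) * ((n : ℝ) - S.card))) *
      (if (i ∈ S ↔ j ∈ S) then (0 : ℝ) else 1),
    (isNegType_cut S i0).const_mul (by positivity), ?_, ?_⟩
  · rw [pairSum_const_mul, pairSum_cut S (fun _ _ => (1 : ℝ)) (fun _ _ => rfl)]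
    simp only [Finset.sum_const, nsmul_eq_mul, mul_one]
    rw [card_compl_cast]
    exact one_div_mul_cancel hK.ne'
  · have h1 : (fun i j => c i j * ((1 / ((S.card : ℝ) * ((n : ℝ) - S.card))) *
          (if (i ∈ S ↔ j ∈ S) then (0 : ℝ) else 1)))
        = fun i j => (1 / ((S.card : ℝ) * ((n : ℝ) - S.card))) *
          (if (i ∈ S ↔ j ∈ S) then 0 else c i j) := by
      funext i j
      split_ifs <;> ring
    rw [h1, pairSum_const_mul, pairSum_cut S c hc.1]
    unfold cutRatio cutCap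
    ring

/-- The relaxation value is at most the sparsest cut value. -/
theorem glValue_le_sparsestCut (c : Fin n → Fin n → ℝ) (hc : IsCap c) (hn : 2 ≤ n) :
    glValue c ≤ sparsestCut c := by
  apply le_sparsestCut c hn
  intro S hS hS'
  obtain ⟨d, hd, h1, h2⟩ := exists_cut_feasible c hc S hS hS'
  rw [← h2]
  exact glValue_le c hc d hd h1

theorem exists_feasible (hn : 2 ≤ n) :
    ∃ d : Fin n → Fin n → ℝ, IsNegTypeSemimetric d ∧ pairSum d = 1 := by
  have i0 : Fin n := ⟨0, by omega⟩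
  have hne : ({i0} : Finset (Fin n)) ≠ univ := by
    intro h1
    have h2 := congrArg Finset.card h1
    rw [Finset.card_singleton, Finset.card_univ, Fintype.card_fin] at h2
    omega
  obtain ⟨d, hd, h1, -⟩ := exists_cut_feasible (fun _ _ => (0 : ℝ))
    ⟨fun _ _ => rfl, fun _ _ => le_rfl, fun _ => rfl⟩ {i0} (singleton_nonempty _) hne
  exact ⟨d, hd, h1⟩

theorem sum_mem_eq (S : Finset (Fin n)) (g : Fin n → ℝ) :
    ∑ i ∈ S, g i = ∑ i, if i ∈ S then g i else 0 := by
  rw [← Finset.sum_filter]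
  congr 1
  ext i
  simp

theorem sum_compl_eq (S : Finset (Fin n)) (g : Fin n → ℝ) :
    ∑ i ∈ Sᶜ, g i = ∑ i, if i ∈ S then 0 else g i := by
  rw [sum_mem_eq]
  apply Finset.sum_congr rfl
  intro i _
  by_cases hi : i ∈ S <;> simp [hi]

theorem cutCap_eq (c : Fin n → Fin n → ℝ) (S : Finset (Fin n)) :
    cutCap c S = ∑ i, if i ∈ S then (∑ j, if j ∈ S then 0 else c i j) else 0 := by
  unfold cutCap
  rw [sum_mem_eq]
  apply Finset.sum_congr rfl
  intro i _
  rw [sum_compl_eq]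

end Vale.Agent.Lib.P318
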