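import Vale.Agent.Lib.P318.helper51.Basic

namespace Vale.Agent.Lib.P318

open Finset

/-- The type of a vertex of `Fin (5 + m)`: the five base vertices keep their index and
every further vertex has type `5`. -/
def proj6 (m : ℕ) : Fin (5 + m) → Fin 6 := Fin.addCases ![0, 1, 2, 3, 4] (fun _ => 5)

theorem sum_proj6 (m : ℕ) (F : Fin 6 → ℝ) :
    ∑ i : Fin (5 + m), F (proj6 m i) = F 0 + F 1 + F 2 + F 3 + F 4 + m * F 5 := by
  rw [Fin.sum_univ_add, Fin.sum_univ_five]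
  simp [proj6]

/-- The signs of the six types. -/
def bz6 : Fin 6 → ℤ := ![1, 1, 1, -1, -1, 0]

/-- Integer coordinates of the six types. -/
def tz6 : Fin 6 → Fin 5 → ℤ :=
  ![![0, 1, -1, 0, 0], ![0, 0, 1, -1, 0], ![0, -1, 0, 1, 0], ![1, 0, 0, 0, 0],
    ![-1, 0, 0, 0, 0], ![1, 0, 0, 0, 0]]

/-- Squared distances of the six types. -/
def dz6 : Fin 6 → Fin 6 → ℤ :=
  ![![0, 6, 6, 3, 3, 3], ![6, 0, 6, 3, 3, 3], ![6, 6, 0, 3, 3, 3], ![3, 3, 3, 0, 4, 0],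
    ![3, 3, 3, 4, 0, 4], ![3, 3, 3, 0, 4, 0]]

theorem dz6_eq : ∀ a b : Fin 6, dz6 a b = ∑ k : Fin 5, (tz6 a k - tz6 b k) ^ 2 := by decide

theorem dz6_tri : ∀ a b c : Fin 6, dz6 a c ≤ dz6 a b + dz6 b c := by decide

theorem dz6_self : ∀ a : Fin 6, dz6 a a = 0 := by decide

theorem bz6_bound : ∀ a : Fin 6, -1 ≤ bz6 a ∧ bz6 a ≤ 1 := by decide

/-- The sign of a vertex. -/
def bvec (m : ℕ) (i : Fin (5 + m)) : ℝ := ((bz6 (proj6 m i) : ℤ) : ℝ)

/-- The capacities of the gap instance. -/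
def gapCap (m : ℕ) (i j : Fin (5 + m)) : ℝ := if i = j then 0 else 2 - bvec m i * bvec m j

/-- The (unnormalized) semimetric of the gap instance. -/
def gapDist (m : ℕ) (i j : Fin (5 + m)) : ℝ := ((dz6 (proj6 m i) (proj6 m j) : ℤ) : ℝ)

theorem bvec_bound (m : ℕ) (i : Fin (5 + m)) : -1 ≤ bvec m i ∧ bvec m i ≤ 1 := by
  obtain ⟨h1, h2⟩ := bz6_bound (proj6 m i)
  unfold bvec
  exact ⟨by exact_mod_cast h1, by exact_mod_cast h2⟩

theorem bvec_mul_le (m : ℕ) (i j : Fin (5 + m)) : bvec m i * bvec m j ≤ 1 := by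
  obtain ⟨h1, h2⟩ := bvec_bound m i
  obtain ⟨h3, h4⟩ := bvec_bound m j
  nlinarith [mul_nonneg (sub_nonneg.mpr h2) (sub_nonneg.mpr h3),
    mul_nonneg (sub_nonneg.mpr h1) (sub_nonneg.mpr h4)]

theorem sum_bvec (m : ℕ) : ∑ i, bvec m i = 1 := by
  have h := sum_proj6 m (fun a => ((bz6 a : ℤ) : ℝ))
  unfold bvec
  rw [h]
  simp [bz6]

theorem isCap_gapCap (m : ℕ) : IsCap (gapCap m) := by
  refine ⟨fun i j => ?_, fun i j => ?_, fun i => ?_⟩
  · unfold gapCap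
    by_cases h : i = j
    · subst h
      rfl
    · simp [h, Ne.symm h, mul_comm]
  · unfold gapCap
    split_ifs
    · exact le_rfl
    · linarith [bvec_mul_le m i j]
  · simp [gapCap]

theorem one_le_gapCap (m : ℕ) (i j : Fin (5 + m)) (h : i ≠ j) : 1 ≤ gapCap m i j := by
  unfold gapCap
  rw [if_neg h]
  linarith [bvec_mul_le m i j]

theorem int_mul_one_sub_nonpos (z : ℤ) : (z : ℝ) * (1 - z) ≤ 0 := by
  rcases le_or_gt z 0 with h | h
  · have h' : (z : ℝ) ≤ 0 := by exact_mod_cast h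
    nlinarith
  · have h1 : 1 ≤ z := by omega
    have h' : (1 : ℝ) ≤ z := by exact_mod_cast h1
    nlinarith

theorem cutCap_gapCap (m : ℕ) (S : Finset (Fin (5 + m))) :
    cutCap (gapCap m) S = 2 * ((S.card : ℝ) * (((5 + m : ℕ) : ℝ) - S.card))
      - (∑ i ∈ S, bvec m i) * (1 - ∑ i ∈ S, bvec m i) := by
  have hY : ∑ j ∈ Sᶜ, bvec m j = 1 - ∑ i ∈ S, bvec m i := by
    have h := Finset.sum_add_sum_compl S (bvec m)
    rw [sum_bvec] at h
    linarith
  unfold cutCap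
  have h1 : ∀ i ∈ S, ∑ j ∈ Sᶜ, gapCap m i j =
      2 * (Sᶜ.card : ℝ) - bvec m i * ∑ j ∈ Sᶜ, bvec m j := by
    intro i hi
    have h2 : ∀ j ∈ Sᶜ, gapCap m i j = 2 - bvec m i * bvec m j := by
      intro j hj
      have hne : i ≠ j := by
        rintro rfl
        exact (Finset.mem_compl.mp hj) hi
      simp [gapCap, hne]
    rw [Finset.sum_congr rfl h2, Finset.sum_sub_distrib, Finset.sum_const, ← Finset.mul_sum,
      nsmul_eq_mul]
    ring
  rw [Finset.sum_congr rfl h1, Finset.sum_sub_distrib, Finset.sum_const, ← Finset.sum_mul, hY,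
    card_compl_cast, nsmul_eq_mul]
  ring

theorem sum_bvec_int (m : ℕ) (S : Finset (Fin (5 + m))) :
    ∑ i ∈ S, bvec m i = ((∑ i ∈ S, bz6 (proj6 m i) : ℤ) : ℝ) := by
  unfold bvec
  push_cast
  rfl

theorem sparsestCut_gapCap (m : ℕ) : sparsestCut (gapCap m) = 2 := by
  apply le_antisymm
  · have hne : ({Fin.castAdd m (0 : Fin 5)} : Finset (Fin (5 + m))) ≠ univ := by
      intro h1
      have h2 := congrArg Finset.card h1
      rw [Finset.card_singleton, Finset.card_univ, Fintype.card_fin] at h2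
      omega
    have h := sparsestCut_le_cutRatio (gapCap m) {Fin.castAdd m (0 : Fin 5)}
      (singleton_nonempty _) hne
    have hb : bvec m (Fin.castAdd m (0 : Fin 5)) = 1 := by
      simp [bvec, proj6, bz6]
    rw [cutRatio, cutCap_gapCap, Finset.sum_singleton, hb, Finset.card_singleton] at h
    have hpos : (0 : ℝ) < ((5 + m : ℕ) : ℝ) - 1 := by
      push_cast
      have : (0 : ℝ) ≤ m := Nat.cast_nonneg m
      linarith
    have e : (2 * (((1 : ℕ) : ℝ) * (((5 + m : ℕ) : ℝ) - ((1 : ℕ) : ℝ))) - 1 * (1 - 1)) /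
        (((1 : ℕ) : ℝ) * (((5 + m : ℕ) : ℝ) - ((1 : ℕ) : ℝ))) = 2 := by
      rw [Nat.cast_one]
      field_simp
      ring
    rw [e] at h
    exact h
  · apply le_sparsestCut _ (by omega)
    intro S hS hS'
    rw [cutRatio, le_div_iff₀ (cut_size_pos S hS hS'), cutCap_gapCap, sum_bvec_int]
    have h := int_mul_one_sub_nonpos (∑ i ∈ S, bz6 (proj6 m i))
    linarith

theorem isNegType_gapDist (m : ℕ) : IsNegTypeSemimetric (gapDist m) := by
  refine ⟨⟨fun i => WithLp.toLp 2 (Fin.addCases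
      (fun k : Fin 5 => ((tz6 (proj6 m i) k : ℤ) : ℝ)) (fun _ : Fin m => (0 : ℝ))),
    fun i j => ?_⟩, fun i j k => ?_⟩
  · rw [EuclideanSpace.real_norm_sq_eq, Fin.sum_univ_add]
    unfold gapDist
    rw [dz6_eq]
    push_cast
    simp
  · unfold gapDist
    exact_mod_cast dz6_tri _ _ _

/-- The sum of a row of the distance table, the last type counted `m` times. -/
def rowD (m : ℕ) (a : Fin 6) : ℝ :=
  ((dz6 a 0 : ℤ) : ℝ) + ((dz6 a 1 : ℤ) : ℝ) + ((dz6 a 2 : ℤ) : ℝ) +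
    ((dz6 a 3 : ℤ) : ℝ) + ((dz6 a 4 : ℤ) : ℝ) + m * ((dz6 a 5 : ℤ) : ℝ)

theorem sum_sum_gapDist (m : ℕ) : ∑ i, ∑ j, gapDist m i j = 80 + 26 * (m : ℝ) := by
  have h1 : ∀ i, ∑ j, gapDist m i j = rowD m (proj6 m i) := by
    intro i
    exact sum_proj6 m (fun b => ((dz6 (proj6 m i) b : ℤ) : ℝ))
  rw [Finset.sum_congr rfl (fun i _ => h1 i), sum_proj6 m (rowD m)]
  simp [rowD, dz6]
  ring

theorem gapCap_mul_gapDist (m : ℕ) (i j : Fin (5 + m)) :
    gapCap m i j * gapDist m i j =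
      (2 - ((bz6 (proj6 m i) : ℤ) : ℝ) * ((bz6 (proj6 m j) : ℤ) : ℝ)) *
        ((dz6 (proj6 m i) (proj6 m j) : ℤ) : ℝ) := by
  unfold gapCap gapDist bvec
  by_cases h : i = j
  · subst h
    simp [dz6_self]
  · simp [h]

/-- The weighted sum of a row of the distance table, the last type counted `m` times. -/
def rowCD (m : ℕ) (a : Fin 6) : ℝ :=
  (2 - ((bz6 a : ℤ) : ℝ) * ((bz6 0 : ℤ) : ℝ)) * ((dz6 a 0 : ℤ) : ℝ) +
    (2 - ((bz6 a : ℤ) : ℝ) * ((bz6 1 : ℤ) : ℝ)) * ((dz6 a 1 : ℤ) : ℝ) +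
    (2 - ((bz6 a : ℤ) : ℝ) * ((bz6 2 : ℤ) : ℝ)) * ((dz6 a 2 : ℤ) : ℝ) +
    (2 - ((bz6 a : ℤ) : ℝ) * ((bz6 3 : ℤ) : ℝ)) * ((dz6 a 3 : ℤ) : ℝ) +
    (2 - ((bz6 a : ℤ) : ℝ) * ((bz6 4 : ℤ) : ℝ)) * ((dz6 a 4 : ℤ) : ℝ) +
    m * ((2 - ((bz6 a : ℤ) : ℝ) * ((bz6 5 : ℤ) : ℝ)) * ((dz6 a 5 : ℤ) : ℝ))

theorem sum_sum_gapCap_gapDist (m : ℕ) :
    ∑ i, ∑ j, gapCap m i j * gapDist m i j = 152 + 52 * (m : ℝ) := by
  have h1 : ∀ i, ∑ j, gapCap m i j * gapDist m i j = rowCD m (proj6 m i) := by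
    intro i
    rw [Finset.sum_congr rfl (fun j _ => gapCap_mul_gapDist m i j)]
    exact sum_proj6 m (fun b => (2 - ((bz6 (proj6 m i) : ℤ) : ℝ) * ((bz6 b : ℤ) : ℝ)) *
      ((dz6 (proj6 m i) b : ℤ) : ℝ))
  rw [Finset.sum_congr rfl (fun i _ => h1 i), sum_proj6 m (rowCD m)]
  simp [rowCD, dz6, bz6]
  ring

theorem pairSum_gapDist (m : ℕ) : pairSum (gapDist m) = 40 + 13 * (m : ℝ) := by
  have hd := isNegType_gapDist m
  have h := two_mul_pairSum (gapDist m) hd.symm hd.self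
  rw [sum_sum_gapDist] at h
  linarith

theorem pairSum_gapCap_gapDist (m : ℕ) :
    pairSum (fun i j => gapCap m i j * gapDist m i j) = 76 + 26 * (m : ℝ) := by
  have hd := isNegType_gapDist m
  have hc := isCap_gapCap m
  have h := two_mul_pairSum (fun i j => gapCap m i j * gapDist m i j)
    (fun i j => by rw [hc.1 i j, hd.symm i j]) (fun i => by rw [hc.2.2 i, zero_mul])
  rw [sum_sum_gapCap_gapDist] at h
  linarith

theorem glValue_gapCap_le (m : ℕ) :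
    glValue (gapCap m) ≤ (76 + 26 * (m : ℝ)) / (40 + 13 * (m : ℝ)) := by
  have hT : (0 : ℝ) < 40 + 13 * (m : ℝ) := by
    have : (0 : ℝ) ≤ m := Nat.cast_nonneg m
    linarith
  have hd : IsNegTypeSemimetric (fun i j => (1 / (40 + 13 * (m : ℝ))) * gapDist m i j) :=
    (isNegType_gapDist m).const_mul (by positivity)
  have h1 : pairSum (fun i j => (1 / (40 + 13 * (m : ℝ))) * gapDist m i j) = 1 := by
    rw [pairSum_const_mul, pairSum_gapDist]
    exact one_div_mul_cancel hT.ne'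
  have h2 := glValue_le (gapCap m) (isCap_gapCap m) _ hd h1
  have h3 : (fun i j => gapCap m i j * ((1 / (40 + 13 * (m : ℝ))) * gapDist m i j)) =
      fun i j => (1 / (40 + 13 * (m : ℝ))) * (gapCap m i j * gapDist m i j) := by
    funext i j
    ring
  rw [h3, pairSum_const_mul, pairSum_gapCap_gapDist] at h2
  calc glValue (gapCap m) ≤ 1 / (40 + 13 * (m : ℝ)) * (76 + 26 * (m : ℝ)) := h2
    _ = (76 + 26 * (m : ℝ)) / (40 + 13 * (m : ℝ)) := by ring

theorem one_le_glValue_gapCap (m : ℕ) : 1 ≤ glValue (gapCap m) := by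
  apply le_glValue _ _ (exists_feasible (by omega))
  intro d hd h1
  rw [← h1]
  unfold pairSum
  apply Finset.sum_le_sum
  intro i _
  apply Finset.sum_le_sum
  intro j _
  split_ifs with hlt
  · exact le_mul_of_one_le_left (hd.nonneg i j) (one_le_gapCap m i j hlt.ne)
  · exact le_rfl

/-- For every `n ≥ 5` there are capacities on `n` vertices with sparsest cut value `2`
and relaxation value between `1` and `(26 n - 54) / (13 n - 25) < 2`. -/
theorem exists_gap (n : ℕ) (hn : 5 ≤ n) :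
    ∃ c : Fin n → Fin n → ℝ, IsCap c ∧ sparsestCut c = 2 ∧ 1 ≤ glValue c ∧
      glValue c ≤ (26 * (n : ℝ) - 54) / (13 * (n : ℝ) - 25) := by
  obtain ⟨m, rfl⟩ := Nat.exists_eq_add_of_le hn
  refine ⟨gapCap m, isCap_gapCap m, sparsestCut_gapCap m, one_le_glValue_gapCap m, ?_⟩
  have e : (26 * ((5 + m : ℕ) : ℝ) - 54) / (13 * ((5 + m : ℕ) : ℝ) - 25) =
      (76 + 26 * (m : ℝ)) / (40 + 13 * (m : ℝ)) := by
    push_cast
    congr 1 <;> ring
  rw [e]
  exact glValue_gapCap_le m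

end Vale.Agent.Lib.P318
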