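import Vale.Agent.Lib.P318.helper51.Basic

namespace Vale.Agent.Lib.P318

open Finset

theorem three_point_ineq (d01 d02 d12 c01 c02 c12 φ : ℝ)
    (t1 : d01 ≤ d02 + d12) (t2 : d02 ≤ d01 + d12) (t3 : d12 ≤ d01 + d02)
    (h0 : 2 * φ ≤ c01 + c02) (h1 : 2 * φ ≤ c01 + c12) (h2 : 2 * φ ≤ c02 + c12) :
    φ * (d01 + d02 + d12) ≤ c01 * d01 + c02 * d02 + c12 * d12 := by
  nlinarith [mul_nonneg (sub_nonneg.mpr t3) (sub_nonneg.mpr h0),
    mul_nonneg (sub_nonneg.mpr t2) (sub_nonneg.mpr h1),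
    mul_nonneg (sub_nonneg.mpr t1) (sub_nonneg.mpr h2)]

theorem four_point_ineq (d01 d02 d03 d12 d13 d23 c01 c02 c03 c12 c13 c23 φ : ℝ)
    (t1 : d01 ≤ d02 + d12) (t2 : d02 ≤ d01 + d12) (t3 : d12 ≤ d01 + d02)
    (t4 : d01 ≤ d03 + d13) (t5 : d03 ≤ d01 + d13) (t6 : d13 ≤ d01 + d03)
    (t7 : d02 ≤ d03 + d23) (t8 : d03 ≤ d02 + d23) (t9 : d23 ≤ d02 + d03)
    (t10 : d12 ≤ d13 + d23) (t11 : d13 ≤ d12 + d23) (t12 : d23 ≤ d12 + d13)
    (h0 : 3 * φ ≤ c01 + c02 + c03) (h1 : 3 * φ ≤ c01 + c12 + c13)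
    (h2 : 3 * φ ≤ c02 + c12 + c23) (h3 : 3 * φ ≤ c03 + c13 + c23)
    (h01 : 4 * φ ≤ c02 + c03 + c12 + c13) (h02 : 4 * φ ≤ c01 + c03 + c12 + c23)
    (h03 : 4 * φ ≤ c01 + c02 + c13 + c23) :
    φ * (d01 + d02 + d03 + d12 + d13 + d23) ≤
      c01 * d01 + c02 * d02 + c03 * d03 + c12 * d12 + c13 * d13 + c23 * d23 := by
  rcases le_total (d02 + d13) (d01 + d23) with h12 | h12
  · rcases le_total (d03 + d12) (d01 + d23) with h13 | h13
    · nlinarith [mul_nonneg (sub_nonneg.mpr t9) (sub_nonneg.mpr h0),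
        mul_nonneg (sub_nonneg.mpr t12) (sub_nonneg.mpr h1),
        mul_nonneg (sub_nonneg.mpr t1) (sub_nonneg.mpr h2),
        mul_nonneg (sub_nonneg.mpr t4) (sub_nonneg.mpr h3),
        mul_nonneg (sub_nonneg.mpr h12) (sub_nonneg.mpr h02),
        mul_nonneg (sub_nonneg.mpr h13) (sub_nonneg.mpr h03)]
    · nlinarith [mul_nonneg (sub_nonneg.mpr t3) (sub_nonneg.mpr h0),
        mul_nonneg (sub_nonneg.mpr t5) (sub_nonneg.mpr h1),
        mul_nonneg (sub_nonneg.mpr t8) (sub_nonneg.mpr h2),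
        mul_nonneg (sub_nonneg.mpr t10) (sub_nonneg.mpr h3),
        mul_nonneg (sub_nonneg.mpr h13) (sub_nonneg.mpr h01),
        mul_nonneg (sub_nonneg.mpr (h12.trans h13)) (sub_nonneg.mpr h02)]
  · rcases le_total (d03 + d12) (d02 + d13) with h23 | h23
    · nlinarith [mul_nonneg (sub_nonneg.mpr t6) (sub_nonneg.mpr h0),
        mul_nonneg (sub_nonneg.mpr t2) (sub_nonneg.mpr h1),
        mul_nonneg (sub_nonneg.mpr t11) (sub_nonneg.mpr h2),
        mul_nonneg (sub_nonneg.mpr t7) (sub_nonneg.mpr h3),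
        mul_nonneg (sub_nonneg.mpr h12) (sub_nonneg.mpr h01),
        mul_nonneg (sub_nonneg.mpr h23) (sub_nonneg.mpr h03)]
    · nlinarith [mul_nonneg (sub_nonneg.mpr t3) (sub_nonneg.mpr h0),
        mul_nonneg (sub_nonneg.mpr t5) (sub_nonneg.mpr h1),
        mul_nonneg (sub_nonneg.mpr t8) (sub_nonneg.mpr h2),
        mul_nonneg (sub_nonneg.mpr t10) (sub_nonneg.mpr h3),
        mul_nonneg (sub_nonneg.mpr (h12.trans h23)) (sub_nonneg.mpr h01),
        mul_nonneg (sub_nonneg.mpr h23) (sub_nonneg.mpr h02)]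

theorem key_two (c : Fin 2 → Fin 2 → ℝ) (d : Fin 2 → Fin 2 → ℝ)
    (hd : IsNegTypeSemimetric d) :
    sparsestCut c * pairSum d ≤ pairSum (fun i j => c i j * d i j) := by
  have e1 : pairSum d = d 0 1 := by
    simp [pairSum, Fin.sum_univ_two]
  have e2 : pairSum (fun i j => c i j * d i j) = c 0 1 * d 0 1 := by
    simp [pairSum, Fin.sum_univ_two]
  have h0 : sparsestCut c ≤ c 0 1 := by
    have h := sparsestCut_le_cutRatio c {0} (by simp) (by decide)
    rw [cutRatio, cutCap_eq] at h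
    simp [Fin.sum_univ_two] at h
    norm_num at h
    linarith
  rw [e1, e2]
  exact mul_le_mul_of_nonneg_right h0 (hd.nonneg 0 1)

theorem key_three (c : Fin 3 → Fin 3 → ℝ) (hc : IsCap c) (d : Fin 3 → Fin 3 → ℝ)
    (hd : IsNegTypeSemimetric d) :
    sparsestCut c * pairSum d ≤ pairSum (fun i j => c i j * d i j) := by
  have hs := hd.symm
  have ht := hd.2
  have cs := hc.1
  have e1 : pairSum d = d 0 1 + d 0 2 + d 1 2 := by
    simp [pairSum, Fin.sum_univ_three]
  have e2 : pairSum (fun i j => c i j * d i j) = c 0 1 * d 0 1 + c 0 2 * d 0 2 + c 1 2 * d 1 2 := by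
    simp [pairSum, Fin.sum_univ_three]
  have h0 : 2 * sparsestCut c ≤ c 0 1 + c 0 2 := by
    have h := sparsestCut_le_cutRatio c {0} (by simp) (by decide)
    rw [cutRatio, cutCap_eq] at h
    simp [Fin.sum_univ_three] at h
    norm_num at h
    linarith
  have h1 : 2 * sparsestCut c ≤ c 0 1 + c 1 2 := by
    have h := sparsestCut_le_cutRatio c {1} (by simp) (by decide)
    rw [cutRatio, cutCap_eq] at h
    simp [Fin.sum_univ_three] at h
    norm_num at h
    linarith [cs 1 0]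
  have h2 : 2 * sparsestCut c ≤ c 0 2 + c 1 2 := by
    have h := sparsestCut_le_cutRatio c {2} (by simp) (by decide)
    rw [cutRatio, cutCap_eq] at h
    simp [Fin.sum_univ_three] at h
    norm_num at h
    linarith [cs 2 0, cs 2 1]
  rw [e1, e2]
  apply three_point_ineq _ _ _ _ _ _ _ _ _ _ h0 h1 h2
  · have := ht 0 2 1
    linarith [hs 2 1]
  · have := ht 0 1 2
    linarith
  · have := ht 1 0 2
    linarith [hs 1 0]

theorem key_four (c : Fin 4 → Fin 4 → ℝ) (hc : IsCap c) (d : Fin 4 → Fin 4 → ℝ)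
    (hd : IsNegTypeSemimetric d) :
    sparsestCut c * pairSum d ≤ pairSum (fun i j => c i j * d i j) := by
  have hs := hd.symm
  have ht := hd.2
  have cs := hc.1
  have e1 : pairSum d = d 0 1 + d 0 2 + d 0 3 + d 1 2 + d 1 3 + d 2 3 := by
    simp [pairSum, Fin.sum_univ_four]
    ring
  have e2 : pairSum (fun i j => c i j * d i j) = c 0 1 * d 0 1 + c 0 2 * d 0 2 + c 0 3 * d 0 3
      + c 1 2 * d 1 2 + c 1 3 * d 1 3 + c 2 3 * d 2 3 := by
    simp [pairSum, Fin.sum_univ_four]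
    ring
  have h0 : 3 * sparsestCut c ≤ c 0 1 + c 0 2 + c 0 3 := by
    have h := sparsestCut_le_cutRatio c {0} (by simp) (by decide)
    rw [cutRatio, cutCap_eq] at h
    simp [Fin.sum_univ_four] at h
    norm_num at h
    linarith
  have h1 : 3 * sparsestCut c ≤ c 0 1 + c 1 2 + c 1 3 := by
    have h := sparsestCut_le_cutRatio c {1} (by simp) (by decide)
    rw [cutRatio, cutCap_eq] at h
    simp [Fin.sum_univ_four] at h
    norm_num at h
    linarith [cs 1 0]
  have h2 : 3 * sparsestCut c ≤ c 0 2 + c 1 2 + c 2 3 := by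
    have h := sparsestCut_le_cutRatio c {2} (by simp) (by decide)
    rw [cutRatio, cutCap_eq] at h
    simp [Fin.sum_univ_four] at h
    norm_num at h
    linarith [cs 2 0, cs 2 1]
  have h3 : 3 * sparsestCut c ≤ c 0 3 + c 1 3 + c 2 3 := by
    have h := sparsestCut_le_cutRatio c {3} (by simp) (by decide)
    rw [cutRatio, cutCap_eq] at h
    simp [Fin.sum_univ_four] at h
    norm_num at h
    linarith [cs 3 0, cs 3 1, cs 3 2]
  have h01 : 4 * sparsestCut c ≤ c 0 2 + c 0 3 + c 1 2 + c 1 3 := by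
    have h := sparsestCut_le_cutRatio c {0, 1} (by simp) (by decide)
    rw [cutRatio, cutCap_eq] at h
    simp [Fin.sum_univ_four] at h
    norm_num at h
    linarith
  have h02 : 4 * sparsestCut c ≤ c 0 1 + c 0 3 + c 1 2 + c 2 3 := by
    have h := sparsestCut_le_cutRatio c {0, 2} (by simp) (by decide)
    rw [cutRatio, cutCap_eq] at h
    simp [Fin.sum_univ_four] at h
    norm_num at h
    linarith [cs 2 1]
  have h03 : 4 * sparsestCut c ≤ c 0 1 + c 0 2 + c 1 3 + c 2 3 := by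
    have h := sparsestCut_le_cutRatio c {0, 3} (by simp) (by decide)
    rw [cutRatio, cutCap_eq] at h
    simp [Fin.sum_univ_four] at h
    norm_num at h
    linarith [cs 3 1, cs 3 2]
  rw [e1, e2]
  apply four_point_ineq _ _ _ _ _ _ _ _ _ _ _ _ _ _ _ _ _ _ _ _ _ _ _ _ _ h0 h1 h2 h3 h01 h02 h03
  · have := ht 0 2 1
    linarith [hs 2 1]
  · have := ht 0 1 2
    linarith
  · have := ht 1 0 2
    linarith [hs 1 0]
  · have := ht 0 3 1
    linarith [hs 3 1]
  · have := ht 0 1 3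
    linarith
  · have := ht 1 0 3
    linarith [hs 1 0]
  · have := ht 0 3 2
    linarith [hs 3 2]
  · have := ht 0 2 3
    linarith
  · have := ht 2 0 3
    linarith [hs 2 0]
  · have := ht 1 3 2
    linarith [hs 3 2]
  · have := ht 1 2 3
    linarith
  · have := ht 2 1 3
    linarith [hs 2 1]

/-- On at most four vertices the relaxation is exact. -/
theorem glValue_eq_sparsestCut_small (n : ℕ) (h2 : 2 ≤ n) (h4 : n ≤ 4)
    (c : Fin n → Fin n → ℝ) (hc : IsCap c) : glValue c = sparsestCut c := by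
  apply le_antisymm (glValue_le_sparsestCut c hc h2)
  apply le_glValue c _ (exists_feasible h2)
  intro d hd h1
  have key : sparsestCut c * pairSum d ≤ pairSum (fun i j => c i j * d i j) := by
    interval_cases n
    · exact key_two c d hd
    · exact key_three c hc d hd
    · exact key_four c hc d hd
  rw [h1, mul_one] at key
  exact key

end Vale.Agent.Lib.P318
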